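import Vale.Agent.P113.H163.Pde
import Vale.Agent.P113.H968.Flow
import Vale.Agent.P113.H772.Assembly

/-!
# P113: glue of the flow theorem and of the PDE side
-/

set_option autoImplicit false

open MeasureTheory
open scoped ContDiff

namespace Vale.Agent.P113.H163

open Vale.Agent.P113

variable (S : BlockSystem)

/-- The time functions, indexed. -/
noncomputable def gg (j : ℕ) : ℝ → ℝ := if j = 0 then g0 else g j

/-- Their primitives, indexed. -/
noncomputable def GG (j : ℕ) : ℝ → ℝ := if j = 0 then G0 else G j

theorem lift_unflagged {i : Fin S.n} (h : S.flag i = false) : lift S i = ht S i := by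
  simp [lift, h]

theorem lift_flagged {i : Fin S.n} (h : S.flag i = true) : lift S i = 11 / 16 := by
  simp [lift, h]

/-- The data for helper968's flow theorem. -/
noncomputable def flowData : H968.FlowData S where
  e := eps S
  z := lift S
  g := gg
  G := GG
  h1 := h1 S
  h2 := h2 S
  h3 := h3 S
  h4 := h4 S
  e_pos := eps_pos S
  z_pos := fun i hi => by rw [lift_unflagged S hi]; exact ht_pos S i
  z_lt := fun i hi => by rw [lift_unflagged S hi]; exact ht_lt S i
  z_flag := fun i hi => by
    rw [lift_flagged S hi]
    have := eps_le S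
    constructor
    · norm_num
    · linarith
  hasDerivAt_G := by
    intro j hj t
    by_cases h : j = 0
    · simp only [GG, gg, h, if_true]
      exact hasDerivAt_G0 t
    · simp only [GG, gg, h, if_false]
      exact hasDerivAt_G j t
  mono_G := by
    intro j hj
    by_cases h : j = 0
    · simp only [GG, h, if_true]
      exact G0_monotone
    · simp only [GG, h, if_false]
      exact G_monotone (by omega)
  G_zero := fun t ht => by simp only [GG, if_true]; exact G0_before ht
  G_one := fun t ht => by simp only [GG, if_true]; exact G0_after (by linarith)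
  G_left := fun j h1 h2 n t e1 e2 => by
    have h : j ≠ 0 := by omega
    simp only [GG, h, if_false]
    exact G_before (by omega) n e1 e2
  G_right := fun j h1 h2 n t e1 e2 => by
    have h : j ≠ 0 := by omega
    simp only [GG, h, if_false]
    exact G_after (by omega) n e1 e2
  indep1 := fun x s => h1_congr S (by simp) (by simp)
  indep2 := fun x s => h2_congr S (by simp) (by simp)
  indep3 := fun x s => h3_congr S (by simp) (by simp)
  indep4 := fun x s => h4_congr S (by simp) (by simp)
  val1 := fun i x e1 e2 e3 e4 => h1_val S i x e1 e2 e3 e4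
  val2 := fun i x hi e1 e2 e3 e4 => by
    rw [lift_unflagged S hi] at *
    rw [h2_val S i x e1 e2 e3 e4]
    simp only [lam]
    push_cast
    ring
  val3 := fun i x hi e1 e2 e3 e4 => by
    rw [lift_unflagged S hi] at *
    rw [h3_val S i x e1 e2 e3 e4]
    simp only [lam, mu]
    push_cast
    ring
  val4 := fun i x hi e1 e2 e3 e4 => by
    rw [lift_unflagged S hi]
    rw [h4_val S i x e1 e2 e3 e4]
    simp only [lam, mu]
    push_cast
    ring

theorem core : H772.Core S := by
  obtain ⟨F, hF1, hF2⟩ := pde_main S
  refine ⟨F, hF1, fun ν _ x₀ A c _ _ _ _ => ?_⟩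
  refine ⟨uvel S ν c, ?_, ?_, ?_⟩
  · exact contDiff_pi.2 fun i => uvel_contDiff S ν c i
  · intro T hT
    refine hF2 ν c _ ?_ T hT
    intro t x i
    simp only [g0']
    split_ifs <;> ring
  · have hu : ∀ t, 0 ≤ t → ∀ x, uvel S ν c t x = ![(flowData S).g 2 t * (flowData S).h2 x,
        (flowData S).g 0 t * c + (flowData S).g 3 t * (flowData S).h3 x,
        (flowData S).g 1 t * (flowData S).h1 x - (flowData S).g 4 t * (flowData S).h4 x] := by
      intro t _ x
      funext i
      fin_cases i
      · change uvel S ν c t x 0 = g 2 t * h2 S x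
        exact uvel0 S ν c t x
      · change uvel S ν c t x 1 = g0 t * c + g 3 t * h3 S x
        rw [uvel1 S ν c t x]; ring
      · change uvel S ν c t x 2 = g 1 t * h1 S x - g 4 t * h4 S x
        exact uvel2 S ν c t x
    obtain ⟨⟨X, hX⟩, huniq, hhit, hrun⟩ := (flowData S).flow_abstract c x₀ A hu
    refine ⟨X, hX, fun Y hY t ht => huniq Y X hY hX t ht, fun h => ?_, fun h t ht => ?_⟩
    · exact hhit h X hX
    · exact hrun h X hX t ht

end Vale.Agent.P113.H163
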