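import Vale.Agent.P113.H163.Velocity
import Vale.Agent.P113.H772.Classical

/-!
# P113: the velocity field solves the forced Navier-Stokes system with an admissible force
-/

set_option autoImplicit false

open MeasureTheory
open scoped ContDiff

namespace Vale.Agent.P113.H163

open Vale.Agent.P113

/-! ## time supports -/

theorem g_or {j k : ℕ} (hjk : j < k) (hk : k ≤ 5) (t : ℝ) : g j t = 0 ∨ g k t = 0 := by
  have hjk' : (j : ℝ) + 1 ≤ k := by exact_mod_cast hjk
  have e0 := Int.floor_le t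
  have e1 := (Int.lt_floor_add_one t).le
  rcases le_total (t - ⌊t⌋) ((5 + j) / 10) with h | h
  · right
    rw [g_eq hk ⌊t⌋ e0 e1, H803.rho_of_le (by linarith), mul_zero]
  · left
    rw [g_eq (by omega) ⌊t⌋ e0 e1, H803.rho_of_ge (by linarith), mul_zero]

theorem g_zero_of_le_half {j : ℕ} (hj1 : 1 ≤ j) (hj : j ≤ 5) {n : ℤ} {t : ℝ} (h0 : n ≤ t)
    (h1 : t ≤ n + 1 / 2) : g j t = 0 := by
  have hj' : (1 : ℝ) ≤ j := by exact_mod_cast hj1
  rw [g_eq hj n h0 (by linarith), H803.rho_of_le (by linarith), mul_zero]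

theorem g0_or {j : ℕ} (hj1 : 1 ≤ j) (hj : j ≤ 5) (t : ℝ) : g0 t = 0 ∨ g j t = 0 := by
  rcases le_total t (1 / 10) with h | h
  · exact Or.inl (g0_before h)
  rcases le_total t (3 / 10) with h' | h'
  · right
    exact g_zero_of_le_half hj1 hj (n := 0) (by push_cast; linarith) (by push_cast; linarith)
  · exact Or.inl (g0_after h')

theorem g_at_zero {j : ℕ} (hj1 : 1 ≤ j) (hj : j ≤ 5) : g j 0 = 0 :=
  g_zero_of_le_half hj1 hj (n := 0) (by push_cast; exact le_rfl) (by push_cast; norm_num)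

/-! ## independence -/

theorem affFun_congr {j k : Fin 3} (p q r w δ α β γ : ℚ) {x y : Fin 3 → ℝ} (hj : x j = y j)
    (hk : x k = y k) : affFun j k p q r w δ α β γ x = affFun j k p q r w δ α β γ y := by
  unfold affFun
  rw [hj, hk]

variable (S : BlockSystem)

theorem h1_congr {x y : Fin 3 → ℝ} (e0 : x 0 = y 0) (e1 : x 1 = y 1) : h1 S x = h1 S y :=
  Finset.sum_congr rfl fun _ _ => affFun_congr _ _ _ _ _ _ _ _ e0 e1

theorem h2_congr {x y : Fin 3 → ℝ} (e1 : x 1 = y 1) (e2 : x 2 = y 2) : h2 S x = h2 S y :=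
  Finset.sum_congr rfl fun _ _ => affFun_congr _ _ _ _ _ _ _ _ e1 e2

theorem h3_congr {x y : Fin 3 → ℝ} (e0 : x 0 = y 0) (e2 : x 2 = y 2) : h3 S x = h3 S y :=
  Finset.sum_congr rfl fun _ _ => affFun_congr _ _ _ _ _ _ _ _ e0 e2

theorem h4_congr {x y : Fin 3 → ℝ} (e0 : x 0 = y 0) (e1 : x 1 = y 1) : h4 S x = h4 S y :=
  Finset.sum_congr rfl fun _ _ => affFun_congr _ _ _ _ _ _ _ _ e0 e1

/-- A function which does not change along the coordinate `j` has vanishing `∂_j`. -/
theorem pd_eq_zero_of_indep {j : Fin 3} {f : (Fin 3 → ℝ) → ℝ}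
    (h : ∀ (x : Fin 3 → ℝ) (s : ℝ), f (x + s • Pi.single j 1) = f x) (x : Fin 3 → ℝ) :
    pd j f x = 0 := by
  unfold pd lineDeriv
  simp only [h]
  exact deriv_const _ _

theorem add_single_ne {i j : Fin 3} (hij : i ≠ j) (x : Fin 3 → ℝ) (s : ℝ) :
    (x + s • (Pi.single j (1 : ℝ) : Fin 3 → ℝ)) i = x i := by
  simp [Pi.single_eq_of_ne hij]

/-! ## validity -/

theorem affTerms_prop {s : ℚ} {n : ℤ} {slotj : ℕ} {j k : Fin 3} {p q r w δ α β γ : ℚ}
    (h : PGood p q δ) (h' : PGood r w δ) :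
    ∀ τ ∈ affTerms s n [(true, slot slotj)] j k p q r w δ α β γ,
      τ.Valid ∧ τ.isPeriodic = true := by
  have hsp : ∀ a b : ℕ, ∀ i, ∀ g ∈ sp j k (platB p q δ a) (platB r w δ b) i, g.Valid := by
    intro a b i g hg
    unfold sp at hg
    split_ifs at hg
    · rw [List.mem_singleton] at hg
      rw [hg]
      exact platB_valid h.δ_pos h.le _
    · rw [List.mem_singleton] at hg
      rw [hg]
      exact platB_valid h.δ_pos h'.le _
    · simp at hg
  have ht : ∀ g ∈ [(true, slot slotj)], g.2.Valid := by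
    intro g hg
    rw [List.mem_singleton] at hg
    rw [hg]
    exact slot_valid _
  intro τ hτ
  simp only [affTerms, List.mem_cons, List.not_mem_nil, or_false] at hτ
  rcases hτ with rfl | rfl | rfl
  · exact ⟨⟨by simp, ht, hsp _ _⟩, rfl⟩
  · exact ⟨⟨by simp, ht, hsp _ _⟩, rfl⟩
  · exact ⟨⟨by simp, ht, hsp _ _⟩, rfl⟩

theorem profTerms_prop {s : ℚ} {slotj : ℕ} {j k : Fin 3} {p q r w : Fin S.n → ℚ} {δ : ℚ}
    {co : Fin S.n → ℚ × ℚ × ℚ} (h : ∀ i, PGood (p i) (q i) δ) (h' : ∀ i, PGood (r i) (w i) δ) :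
    ∀ τ ∈ profTerms S s slotj j k p q r w δ co, τ.Valid ∧ τ.isPeriodic = true := by
  intro τ hτ
  unfold profTerms at hτ
  rw [List.mem_flatMap] at hτ
  obtain ⟨i, _, hi⟩ := hτ
  exact affTerms_prop (h i) (h' i) τ hi

theorem vel_prop (i : Fin 3) : ∀ τ ∈ vel S i, τ.Valid ∧ τ.isPeriodic = true := by
  have hd := del_ok S
  intro τ hτ
  unfold vel at hτ
  split_ifs at hτ
  · exact profTerms_prop S hd.cd hd.ht τ hτ
  · exact profTerms_prop S hd.ab' hd.ht τ hτ
  · rcases List.mem_append.1 hτ with hτ | hτ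
    · exact profTerms_prop S hd.ab hd.cd τ hτ
    · exact profTerms_prop S hd.ab' hd.cd' τ hτ

/-! ## the velocity field with its transient part -/

/-- The velocity field. -/
noncomputable def uvel (ν cc t : ℝ) (x : Fin 3 → ℝ) (i : Fin 3) : ℝ :=
  evalTerms (vel S i) ν t x + if i = 1 then cc * g0 t else 0

theorem uvel0 (ν cc t : ℝ) (x : Fin 3 → ℝ) : uvel S ν cc t x 0 = g 2 t * h2 S x := by
  simp [uvel, vel_eval0]

theorem uvel1 (ν cc t : ℝ) (x : Fin 3 → ℝ) :
    uvel S ν cc t x 1 = g 3 t * h3 S x + cc * g0 t := by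
  simp [uvel, vel_eval1]

theorem uvel2 (ν cc t : ℝ) (x : Fin 3 → ℝ) :
    uvel S ν cc t x 2 = g 1 t * h1 S x - g 4 t * h4 S x := by
  simp [uvel, vel_eval2]

theorem g0_contDiff : ContDiff ℝ ∞ g0 := by
  unfold g0
  exact contDiff_const.mul ((H803.rho_contDiff (n := ⊤)).comp
    ((contDiff_const.mul contDiff_id).sub contDiff_const))

theorem uvel_contDiff (ν cc : ℝ) (i : Fin 3) :
    ContDiff ℝ ∞ fun z : ℝ × (Fin 3 → ℝ) => uvel S ν cc z.1 z.2 i := by
  unfold uvel
  refine (H803.evalTerms_contDiff (n := ⊤) (fun τ hτ => (vel_prop S i τ hτ).1) ν).add ?_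
  split_ifs
  · exact contDiff_const.mul (g0_contDiff.comp contDiff_fst)
  · exact contDiff_const

theorem uvel_isPer (ν cc t : ℝ) (i : Fin 3) : IsPer fun x => uvel S ν cc t x i := by
  intro x k
  simp only [uvel]
  rw [H803.evalTerms_isPer (vel S i) ν t x k]

theorem uvel_zero (ν cc : ℝ) (x : Fin 3 → ℝ) (i : Fin 3) : uvel S ν cc 0 x i = 0 := by
  fin_cases i
  · change uvel S ν cc 0 x 0 = 0
    rw [uvel0, g_at_zero (by norm_num) (by norm_num)]; ring
  · change uvel S ν cc 0 x 1 = 0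
    rw [uvel1, g_at_zero (by norm_num) (by norm_num), g0_before (by norm_num)]; ring
  · change uvel S ν cc 0 x 2 = 0
    rw [uvel2, g_at_zero (by norm_num) (by norm_num), g_at_zero (by norm_num) (by norm_num)]; ring

theorem uvel_indep (ν cc t : ℝ) (i : Fin 3) (x : Fin 3 → ℝ) (s : ℝ) :
    uvel S ν cc t (x + s • Pi.single i 1) i = uvel S ν cc t x i := by
  fin_cases i
  · change uvel S ν cc t (x + s • Pi.single 0 1) 0 = uvel S ν cc t x 0
    rw [uvel0, uvel0, h2_congr S (add_single_ne (by decide) x s) (add_single_ne (by decide) x s)]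
  · change uvel S ν cc t (x + s • Pi.single 1 1) 1 = uvel S ν cc t x 1
    rw [uvel1, uvel1, h3_congr S (add_single_ne (by decide) x s) (add_single_ne (by decide) x s)]
  · change uvel S ν cc t (x + s • Pi.single 2 1) 2 = uvel S ν cc t x 2
    rw [uvel2, uvel2, h1_congr S (add_single_ne (by decide) x s) (add_single_ne (by decide) x s),
      h4_congr S (add_single_ne (by decide) x s) (add_single_ne (by decide) x s)]

theorem pd_self (ν cc t : ℝ) (i : Fin 3) (x : Fin 3 → ℝ) :
    pd i (fun y => uvel S ν cc t y i) x = 0 :=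
  pd_eq_zero_of_indep (fun y s => uvel_indep S ν cc t i y s) x

theorem pd_zero_of_const {j : Fin 3} {f : (Fin 3 → ℝ) → ℝ} {c : ℝ} (h : ∀ x, f x = c)
    (x : Fin 3 → ℝ) : pd j f x = 0 :=
  pd_eq_zero_of_indep (fun y s => by rw [h, h]) x

theorem uvel_nonlin (ν cc t : ℝ) (i j : Fin 3) (x : Fin 3 → ℝ) :
    uvel S ν cc t x j * pd j (fun y => uvel S ν cc t y i) x = 0 := by
  rcases eq_or_ne i j with rfl | hij
  · rw [pd_self, mul_zero]
  -- `i ≠ j`
  have key0 : g 2 t = 0 → ∀ k, pd k (fun y => uvel S ν cc t y 0) x = 0 := fun h k =>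
    pd_zero_of_const (c := 0) (fun y => by rw [uvel0, h, zero_mul]) x
  have key1 : g 3 t = 0 → ∀ k, pd k (fun y => uvel S ν cc t y 1) x = 0 := fun h k =>
    pd_zero_of_const (c := cc * g0 t) (fun y => by rw [uvel1, h, zero_mul, zero_add]) x
  have key2 : g 1 t = 0 → g 4 t = 0 → ∀ k, pd k (fun y => uvel S ν cc t y 2) x = 0 :=
    fun h h' k => pd_zero_of_const (c := 0) (fun y => by rw [uvel2, h, h']; ring) x
  have o12 := g_or (j := 1) (k := 2) (by norm_num) (by norm_num) t
  have o13 := g_or (j := 1) (k := 3) (by norm_num) (by norm_num) t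
  have o23 := g_or (j := 2) (k := 3) (by norm_num) (by norm_num) t
  have o24 := g_or (j := 2) (k := 4) (by norm_num) (by norm_num) t
  have o34 := g_or (j := 3) (k := 4) (by norm_num) (by norm_num) t
  have o01 := g0_or (j := 1) (by norm_num) (by norm_num) t
  have o02 := g0_or (j := 2) (by norm_num) (by norm_num) t
  have o04 := g0_or (j := 4) (by norm_num) (by norm_num) t
  have c2 : g 2 t ≠ 0 → g 1 t = 0 ∧ g 3 t = 0 ∧ g 4 t = 0 ∧ g0 t = 0 := fun h =>
    ⟨o12.resolve_right h, o23.resolve_left h, o24.resolve_left h, o02.resolve_right h⟩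
  have hi : i = 0 ∨ i = 1 ∨ i = 2 := by fin_cases i <;> simp
  have hj : j = 0 ∨ j = 1 ∨ j = 2 := by fin_cases j <;> simp
  rcases hi with rfl | rfl | rfl
  · -- derivative of component 0
    by_cases h : g 2 t = 0
    · rw [key0 h, mul_zero]
    · obtain ⟨e1, e3, e4, e0⟩ := c2 h
      rcases hj with rfl | rfl | rfl
      · exact absurd rfl hij
      · rw [uvel1, e3, e0]; ring
      · rw [uvel2, e1, e4]; ring
  · -- derivative of component 1
    by_cases h : g 3 t = 0
    · rw [key1 h, mul_zero]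
    · rcases hj with rfl | rfl | rfl
      · rw [uvel0, o23.resolve_right h]; ring
      · exact absurd rfl hij
      · rw [uvel2, o13.resolve_right h, o34.resolve_left h]; ring
  · -- derivative of component 2
    by_cases h : g 1 t = 0
    · by_cases h' : g 4 t = 0
      · rw [key2 h h', mul_zero]
      · rcases hj with rfl | rfl | rfl
        · rw [uvel0, o24.resolve_right h']; ring
        · rw [uvel1, o34.resolve_right h', o04.resolve_right h']; ring
        · exact absurd rfl hij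
    · rcases hj with rfl | rfl | rfl
      · rw [uvel0, o12.resolve_left h]; ring
      · rw [uvel1, o13.resolve_left h, o01.resolve_right h]; ring
      · exact absurd rfl hij

/-! ## the force -/

/-- The derivative of the transient time bump. -/
noncomputable def g0' (t : ℝ) : ℝ := 100 * kappa⁻¹ * iteratedDeriv 1 rho (10 * t - 2)

theorem hasDerivAt_g0 (t : ℝ) : HasDerivAt g0 (g0' t) t := by
  have h3 : HasDerivAt (fun s : ℝ => 10 * s - 2) 10 t := by
    simpa using ((hasDerivAt_id t).const_mul 10).sub_const 2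
  have h4 := (H803.hasDerivAt_iteratedDeriv_rho 0 (10 * t - 2)).comp t h3
  rw [iteratedDeriv_zero] at h4
  refine (h4.const_mul (10 * kappa⁻¹)).congr_deriv ?_
  unfold g0'
  ring

theorem exists_force_lists : ∃ F : Fin 3 → List Term,
    (∀ i, ∀ τ ∈ F i, τ.Valid ∧ τ.isPeriodic = true) ∧
    ∀ (ν t : ℝ) (x : Fin 3 → ℝ) (i : Fin 3), evalTerms (F i) ν t x =
      deriv (fun s => evalTerms (vel S i) ν s x) t -
        ν * ∑ j, pd j (pd j fun y => evalTerms (vel S i) ν t y) x := by
  have h : ∀ i, ∃ L : List Term, (∀ τ ∈ L, τ.Valid ∧ τ.isPeriodic = true) ∧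
      ∀ (ν t : ℝ) (x : Fin 3 → ℝ), evalTerms L ν t x =
      deriv (fun s => evalTerms (vel S i) ν s x) t -
        ν * ∑ j, pd j (pd j fun y => evalTerms (vel S i) ν t y) x := by
    intro i
    have hA : H803.IsAdm fun ν t x => evalTerms (vel S i) ν t x :=
      ⟨vel S i, vel_prop S i, fun _ _ _ => rfl⟩
    obtain ⟨A1, hA1, hd1⟩ := hA.exists_dt
    have hB : ∀ j : Fin 3, ∃ A2 : ℝ → ℝ → (Fin 3 → ℝ) → ℝ, H803.IsAdm A2 ∧
        ∀ ν t x, A2 ν t x = pd j (pd j fun y => evalTerms (vel S i) ν t y) x := by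
      intro j
      obtain ⟨B1, hB1, e1⟩ := hA.exists_dx j
      obtain ⟨B2, hB2, e2⟩ := hB1.exists_dx j
      refine ⟨B2, hB2, fun ν t x => ?_⟩
      have e3 : (pd j fun y => evalTerms (vel S i) ν t y) = B1 ν t := by
        funext y
        exact (e1 ν t y).lineDeriv
      rw [e3]
      exact ((e2 ν t x).lineDeriv).symm
    choose B hB1 hB2 using hB
    have hsum : H803.IsAdm fun ν t x => ∑ j, B j ν t x :=
      H803.isAdm_sum Finset.univ fun j _ => hB1 j
    have htot := hA1.add ((H803.isAdm_rat (-1)).mul (H803.isAdm_nu.mul hsum))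
    obtain ⟨L, hL, e⟩ := htot
    refine ⟨L, hL, fun ν t x => ?_⟩
    rw [← e ν t x, (hd1 ν t x).deriv]
    simp only [hB2]
    push_cast
    ring
  choose F hF1 hF2 using h
  exact ⟨F, hF1, fun ν t x i => hF2 i ν t x⟩

theorem pd_add_const {j : Fin 3} (f : (Fin 3 → ℝ) → ℝ) (c : ℝ) :
    pd j (fun y => f y + c) = pd j f := by
  funext x
  unfold pd lineDeriv
  exact deriv_add_const (f := fun t : ℝ => f (x + t • Pi.single j 1)) c

/-- The force of the whole field. -/
theorem pde_main : ∃ F : Fin 3 → List Term,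
    (∀ i, ∀ τ ∈ F i, τ.Valid ∧ τ.isPeriodic = true) ∧
    ∀ (ν cc : ℝ) (f : ℝ → (Fin 3 → ℝ) → Fin 3 → ℝ),
      (∀ t x i, f t x i = evalTerms (F i) ν t x + if i = 1 then cc * g0' t else 0) →
      ∀ T, 0 < T → IsClassicalSolution ν T f (uvel S ν cc) (fun _ _ => 0) := by
  obtain ⟨F, hF1, hF2⟩ := exists_force_lists S
  refine ⟨F, hF1, fun ν cc f hf T hT => ?_⟩
  refine H772.classical_of_smooth ν f (uvel S ν cc) (uvel_contDiff S ν cc)
    (fun t i => uvel_isPer S ν cc t i) (fun x i => uvel_zero S ν cc x i)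
    (fun t x => Finset.sum_eq_zero fun j _ => pd_self S ν cc t j x)
    (fun t x i => Finset.sum_eq_zero fun j _ => uvel_nonlin S ν cc t i j x) ?_ T hT
  intro t x i
  rw [hf, hF2]
  have hdt : deriv (fun s => uvel S ν cc s x i) t =
      deriv (fun s => evalTerms (vel S i) ν s x) t + if i = 1 then cc * g0' t else 0 := by
    have hA : H803.IsAdm fun ν t x => evalTerms (vel S i) ν t x :=
      ⟨vel S i, vel_prop S i, fun _ _ _ => rfl⟩
    obtain ⟨A1, _, hd1⟩ := hA.exists_dt
    have h2 : HasDerivAt (fun s => if i = 1 then cc * g0 s else 0)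
        (if i = 1 then cc * g0' t else 0) t := by
      split_ifs
      · exact (hasDerivAt_g0 t).const_mul cc
      · exact hasDerivAt_const t (0 : ℝ)
    have h3 := (hd1 ν t x).add h2
    rw [(hd1 ν t x).deriv]
    exact h3.deriv
  have hpd : ∀ j, pd j (fun y => uvel S ν cc t y i) =
      pd j fun y => evalTerms (vel S i) ν t y := fun j => by
    simp only [uvel]
    exact pd_add_const _ _
  rw [hdt]
  simp only [hpd]
  ring

end Vale.Agent.P113.H163
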