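import Vale.Agent.P113.Defs
import Vale.Agent.P113.Blocks
import Vale.Agent.P113.H803.Per

/-!
# P113: the profiles of the shears as explicit lists of terms
-/

set_option autoImplicit false

open MeasureTheory

namespace Vale.Agent.P113.H163

open Vale.Agent.P113

/-! ## rational codes -/

/-- The code of a rational number. -/
def ratCode (q : ℚ) : ℤ × ℕ := (q.num, q.den - 1)

@[simp] theorem ratVal_ratCode (q : ℚ) : ratVal (ratCode q) = q := by
  unfold ratVal ratCode
  have h : ((q.den - 1 : ℕ) : ℚ) + 1 = q.den := by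
    have := q.den_pos
    have h2 : q.den - 1 + 1 = q.den := Nat.succ_pred_eq_of_pos this
    exact_mod_cast h2
  simp only [h]
  exact Rat.num_div_den q

theorem ratVal_nat (n : ℕ) : ratVal ((n : ℤ), 0) = n := by
  simp [ratVal]

/-! ## bridges to helper803's calculus -/

theorem kappa_pos : 0 < kappa := H803.kappa_pos





/-! ## plateau bumps -/

/-- The plateau bump which is `κ s^k` on `[p, q]` and `0` outside `(p-δ, q+δ)`. -/
def platB (p q δ : ℚ) (k : ℕ) : Bump :=
  ⟨Sum.inr (ratCode (2 / δ * (q - p) + 2)), k, ratCode (2 / δ), ratCode (2 / δ * p - 1)⟩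

theorem platB_valid {p q δ : ℚ} (hδ : 0 < δ) (hpq : p ≤ q) (k : ℕ) : (platB p q δ k).Valid := by
  refine ⟨?_, ?_⟩
  · simp only [platB, ratVal_ratCode]
    positivity
  · intro l hl
    simp only [platB, Sum.inr.injEq] at hl
    rw [← hl, ratVal_ratCode]
    have : 0 ≤ 2 / δ * (q - p) := mul_nonneg (by positivity) (by linarith)
    linarith

/-- The (real) value of the plateau function. -/
noncomputable def chi (p q δ : ℚ) (s : ℝ) : ℝ :=
  kappa⁻¹ * piL (((2 / δ * (q - p) + 2 : ℚ)) : ℝ) ((((2 / δ : ℚ)) : ℝ) * s - ((2 / δ * p - 1 : ℚ) : ℝ))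

theorem platB_val (p q δ : ℚ) (k : ℕ) (s : ℝ) :
    (platB p q δ k).val s = s ^ k * (kappa * chi p q δ s) := by
  have hk := kappa_pos.ne'
  simp only [platB, Bump.val, ratVal_ratCode, chi]
  rw [mul_inv_cancel_left₀ hk]

theorem chi_eq_one {p q δ : ℚ} (hδ : 0 < δ) {s : ℝ} (h1 : (p : ℝ) ≤ s) (h2 : s ≤ q) :
    chi p q δ s = 1 := by
  have hk := kappa_pos.ne'
  have hδ' : (0 : ℝ) < δ := by exact_mod_cast hδ
  unfold chi
  rw [H803.plat_eq_kappa]
  · exact inv_mul_cancel₀ hk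
  · push_cast
    have : 0 ≤ 2 / (δ : ℝ) * (s - p) := mul_nonneg (by positivity) (by linarith)
    linarith
  · push_cast
    have : 0 ≤ 2 / (δ : ℝ) * (q - s) := mul_nonneg (by positivity) (by linarith)
    linarith

theorem chi_eq_zero_left {p q δ : ℚ} (hδ : 0 < δ) (hpq : p ≤ q) {s : ℝ} (h1 : s ≤ p - δ) :
    chi p q δ s = 0 := by
  have hδ' : (0 : ℝ) < δ := by exact_mod_cast hδ
  have hpq' : (p : ℝ) ≤ q := by exact_mod_cast hpq
  unfold chi
  rw [H803.plat_of_le, mul_zero]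
  · push_cast
    have : 0 ≤ 2 / (δ : ℝ) * (q - p) := mul_nonneg (by positivity) (by linarith)
    linarith
  · push_cast
    have h3 : 2 / (δ : ℝ) * (s - (p - δ)) ≤ 0 :=
      mul_nonpos_of_nonneg_of_nonpos (by positivity) (by linarith)
    have h4 : 2 / (δ : ℝ) * δ = 2 := by field_simp
    nlinarith

theorem chi_eq_zero_right {p q δ : ℚ} (hδ : 0 < δ) (hpq : p ≤ q) {s : ℝ} (h1 : q + δ ≤ s) :
    chi p q δ s = 0 := by
  have hδ' : (0 : ℝ) < δ := by exact_mod_cast hδ
  have hpq' : (p : ℝ) ≤ q := by exact_mod_cast hpq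
  unfold chi
  rw [H803.plat_of_ge, mul_zero]
  · push_cast
    have : 0 ≤ 2 / (δ : ℝ) * (q - p) := mul_nonneg (by positivity) (by linarith)
    linarith
  · push_cast
    have h3 : 0 ≤ 2 / (δ : ℝ) * (s - (q + δ)) := mul_nonneg (by positivity) (by linarith)
    have h4 : 2 / (δ : ℝ) * δ = 2 := by field_simp
    nlinarith

/-- Good plateau data: the support lies in `[0,1]`. -/
structure PGood (p q δ : ℚ) : Prop where
  δ_pos : 0 < δ
  le : p ≤ q
  left : δ ≤ p
  right : q + δ ≤ 1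

theorem periodize_platB {p q δ : ℚ} (h : PGood p q δ) (k : ℕ) {y : ℝ} (h0 : 0 ≤ y) (h1 : y ≤ 1) :
    periodize (platB p q δ k).val y = y ^ k * (kappa * chi p q δ y) := by
  have hl : (δ : ℝ) ≤ p := by exact_mod_cast h.left
  have hr : (q : ℝ) + δ ≤ 1 := by exact_mod_cast h.right
  rw [H803.per_eq_self _ _ h0 h1, platB_val]
  · intro s hs
    rw [platB_val, chi_eq_zero_left h.δ_pos h.le (by linarith)]; simp
  · intro s hs
    rw [platB_val, chi_eq_zero_right h.δ_pos h.le (by linarith)]; simp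

/-! ## affine functions on boxes -/

/-- The space factors with bumps `g` in the coordinate `j` and `g'` in the coordinate `k`. -/
def sp (j k : Fin 3) (g g' : Bump) : Fin 3 → List Bump :=
  fun i => if i = j then [g] else if i = k then [g'] else []

/-- The terms of `s κ^n θ(t) χ_{[p,q]}(x_j) χ_{[r,w]}(x_k) (α + β x_j + γ x_k)`. -/
def affTerms (s : ℚ) (n : ℤ) (time : List (Bool × Bump)) (j k : Fin 3) (p q r w δ α β γ : ℚ) :
    List Term :=
  [⟨ratCode (s * α), 0, n, [], time, sp j k (platB p q δ 0) (platB r w δ 0)⟩,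
   ⟨ratCode (s * β), 0, n, [], time, sp j k (platB p q δ 1) (platB r w δ 0)⟩,
   ⟨ratCode (s * γ), 0, n, [], time, sp j k (platB p q δ 0) (platB r w δ 1)⟩]

/-- The function `χ_{[p,q]}(x_j) χ_{[r,w]}(x_k) (α + β x_j + γ x_k)`, periodized. -/
noncomputable def affFun (j k : Fin 3) (p q r w δ α β γ : ℚ) (x : Fin 3 → ℝ) : ℝ :=
  kappa⁻¹ ^ 2 * (α * (periodize (platB p q δ 0).val (x j) * periodize (platB r w δ 0).val (x k)) +
    β * (periodize (platB p q δ 1).val (x j) * periodize (platB r w δ 0).val (x k)) +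
    γ * (periodize (platB p q δ 0).val (x j) * periodize (platB r w δ 1).val (x k)))

/-- the value of a list of time factors -/
noncomputable def timeProd (time : List (Bool × Bump)) (t : ℝ) : ℝ :=
  (time.map fun g => if g.1 then periodize g.2.val t else g.2.val t).prod

theorem prod_sp {j k : Fin 3} (hjk : j ≠ k) (g g' : Bump) (x : Fin 3 → ℝ) :
    ∏ i, ((sp j k g g' i).map fun g => periodize g.val (x i)).prod =
      periodize g.val (x j) * periodize g'.val (x k) := by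
  rw [Finset.prod_eq_mul j k hjk]
  · simp [sp, hjk.symm]
  · intro i _ hi
    simp [sp, hi.1, hi.2]
  · simp
  · simp

theorem affTerms_eval (s : ℚ) (n : ℤ) (time : List (Bool × Bump)) {j k : Fin 3} (hjk : j ≠ k)
    (p q r w δ α β γ : ℚ) (ν t : ℝ) (x : Fin 3 → ℝ) :
    evalTerms (affTerms s (n - 2) time j k p q r w δ α β γ) ν t x =
      s * kappa ^ n * timeProd time t * affFun j k p q r w δ α β γ x := by
  have hk := kappa_pos.ne'
  simp only [evalTerms, affTerms, List.map_cons, List.map_nil, List.sum_cons, List.sum_nil,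
    Term.val, Term.coeff, Term.timeVal, Term.spaceVal, prod_sp hjk, ratVal_ratCode, pow_zero,
    List.prod_nil, affFun, timeProd]
  have h2 : kappa ^ (n - 2) = kappa ^ n * kappa⁻¹ ^ 2 := by
    rw [zpow_sub₀ hk, div_eq_mul_inv, inv_pow]; norm_cast
  rw [h2]
  push_cast
  ring

theorem affFun_eq {j k : Fin 3} {p q r w δ : ℚ} (h : PGood p q δ) (h' : PGood r w δ)
    (α β γ : ℚ) {x : Fin 3 → ℝ} (hj0 : 0 ≤ x j) (hj1 : x j ≤ 1) (hk0 : 0 ≤ x k) (hk1 : x k ≤ 1) :
    affFun j k p q r w δ α β γ x =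
      chi p q δ (x j) * chi r w δ (x k) * (α + β * x j + γ * x k) := by
  have hk := kappa_pos.ne'
  unfold affFun
  rw [periodize_platB h 0 hj0 hj1, periodize_platB h 1 hj0 hj1, periodize_platB h' 0 hk0 hk1,
    periodize_platB h' 1 hk0 hk1]
  field_simp

theorem affFun_on {j k : Fin 3} {p q r w δ : ℚ} (h : PGood p q δ) (h' : PGood r w δ)
    (α β γ : ℚ) {x : Fin 3 → ℝ} (h1 : (p : ℝ) ≤ x j) (h2 : x j ≤ q) (h3 : (r : ℝ) ≤ x k)
    (h4 : x k ≤ w) :
    affFun j k p q r w δ α β γ x = α + β * x j + γ * x k := by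
  have e1 : (0 : ℝ) < δ := by exact_mod_cast h.δ_pos
  have e2 : (δ : ℝ) ≤ p := by exact_mod_cast h.left
  have e3 : (q : ℝ) + δ ≤ 1 := by exact_mod_cast h.right
  have e4 : (δ : ℝ) ≤ r := by exact_mod_cast h'.left
  have e5 : (w : ℝ) + δ ≤ 1 := by exact_mod_cast h'.right
  rw [affFun_eq h h' α β γ (by linarith) (by linarith) (by linarith) (by linarith),
    chi_eq_one h.δ_pos h1 h2, chi_eq_one h.δ_pos h3 h4]
  ring

theorem affFun_off {j k : Fin 3} {p q r w δ : ℚ} (h : PGood p q δ) (h' : PGood r w δ)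
    (α β γ : ℚ) {x : Fin 3 → ℝ} (hj0 : 0 ≤ x j) (hj1 : x j ≤ 1) (hk0 : 0 ≤ x k) (hk1 : x k ≤ 1)
    (hoff : x j ≤ p - δ ∨ q + δ ≤ x j ∨ x k ≤ r - δ ∨ w + δ ≤ x k) :
    affFun j k p q r w δ α β γ x = 0 := by
  rw [affFun_eq h h' α β γ hj0 hj1 hk0 hk1]
  rcases hoff with h1 | h1 | h1 | h1
  · rw [chi_eq_zero_left h.δ_pos h.le h1]; ring
  · rw [chi_eq_zero_right h.δ_pos h.le h1]; ring
  · rw [chi_eq_zero_left h.δ_pos h'.le h1]; ring
  · rw [chi_eq_zero_right h.δ_pos h'.le h1]; ring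

end Vale.Agent.P113.H163
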