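import Vale.Agent.P113.H163.Profiles

/-!
# P113: the four profiles attached to a block system and their values on the boxes
-/

set_option autoImplicit false

open MeasureTheory

namespace Vale.Agent.P113.H163

open Vale.Agent.P113

variable (S : BlockSystem)

/-- Horizontal scaling factor of rule `i`. -/
def lam (i : Fin S.n) : ℚ := (S.b' i - S.a' i) / (S.b i - S.a i)

/-- Vertical scaling factor of rule `i`. -/
def mu (i : Fin S.n) : ℚ := (S.d' i - S.c' i) / (S.d i - S.c i)

theorem lam_pos (i : Fin S.n) : 0 < lam S i :=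
  div_pos (sub_pos.2 (S.ab' i)) (sub_pos.2 (S.ab i))

theorem mu_pos (i : Fin S.n) : 0 < mu S i :=
  div_pos (sub_pos.2 (S.cd' i)) (sub_pos.2 (S.cd i))

/-- The small slope. -/
def eps : ℚ := 1 / (8 * (S.n + 2))

theorem eps_pos : 0 < eps S := by unfold eps; positivity

/-- The height of the slab of rule `i`. -/
def ht (i : Fin S.n) : ℚ := (i.val + 1) / (2 * (S.n + 2))

/-- The height to which rule `i` lifts. -/
def lift (i : Fin S.n) : ℚ := if S.flag i then 11 / 16 else ht S i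

theorem ht_eq (i : Fin S.n) : ht S i = 4 * (i.val + 1) * eps S := by
  unfold ht eps
  field_simp
  ring

theorem ht_pos (i : Fin S.n) : 0 < ht S i := by unfold ht; positivity

theorem eps_mul : eps S * (8 * (S.n + 2)) = 1 := by
  unfold eps
  field_simp

theorem ht_lt (i : Fin S.n) : ht S i + 2 * eps S < 1 / 2 := by
  rw [ht_eq]
  have h := eps_mul S
  have hp := eps_pos S
  have hi : (i.val : ℚ) + 1 ≤ S.n := by exact_mod_cast i.isLt
  nlinarith

theorem eps_le : 2 * eps S ≤ 1 / 8 := by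
  have h := eps_mul S
  have hp := eps_pos S
  have hn : (0 : ℚ) ≤ S.n := by positivity
  nlinarith

/-- All the smallness conditions on the margin `δ`. -/
structure DeltaOK (δ : ℚ) : Prop where
  pos : 0 < δ
  ab : ∀ i, PGood (S.a i) (S.b i) δ
  cd : ∀ i, PGood (S.c i) (S.d i) δ
  ab' : ∀ i, PGood (S.a' i) (S.b' i) δ
  cd' : ∀ i, PGood (S.c' i) (S.d' i) δ
  ht : ∀ i, PGood (ht S i) (ht S i + 2 * eps S) δ
  le_eps : δ ≤ eps S
  src : ∀ i j, i ≠ j →
    S.b i + δ ≤ S.a j ∨ S.b j + δ ≤ S.a i ∨ S.d i + δ ≤ S.c j ∨ S.d j + δ ≤ S.c i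
  tgt : ∀ i j, i ≠ j →
    S.b' i + δ ≤ S.a' j ∨ S.b' j + δ ≤ S.a' i ∨ S.d' i + δ ≤ S.c' j ∨ S.d' j + δ ≤ S.c' i

open Filter Topology in
theorem ev_le {q : ℚ} (hq : 0 < q) : ∀ᶠ δ in 𝓝[>] (0 : ℚ), δ ≤ q := by
  filter_upwards [Ioc_mem_nhdsGT hq] with δ hδ using hδ.2

open Filter Topology in
theorem ev_add_le {p q : ℚ} (hq : p < q) : ∀ᶠ δ in 𝓝[>] (0 : ℚ), p + δ ≤ q := by
  filter_upwards [ev_le (sub_pos.2 hq)] with δ hδ
  linarith

open Filter Topology in
theorem ev_pgood {p q : ℚ} (h1 : 0 < p) (h2 : p ≤ q) (h3 : q < 1) :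
    ∀ᶠ δ in 𝓝[>] (0 : ℚ), PGood p q δ := by
  filter_upwards [ev_le h1, ev_add_le h3, self_mem_nhdsWithin] with δ e1 e2 e3
  exact ⟨e3, h2, e1, e2⟩

open Filter Topology in
theorem exists_delta : ∃ δ : ℚ, DeltaOK S δ := by
  have key : ∀ᶠ δ in 𝓝[>] (0 : ℚ), DeltaOK S δ := by
    have h1 : ∀ᶠ δ in 𝓝[>] (0 : ℚ), ∀ i, PGood (S.a i) (S.b i) δ :=
      eventually_all.2 fun i => ev_pgood (S.a_pos i) (S.ab i).le (S.b_lt i)
    have h2 : ∀ᶠ δ in 𝓝[>] (0 : ℚ), ∀ i, PGood (S.c i) (S.d i) δ :=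
      eventually_all.2 fun i => ev_pgood (S.c_pos i) (S.cd i).le (S.d_lt i)
    have h3 : ∀ᶠ δ in 𝓝[>] (0 : ℚ), ∀ i, PGood (S.a' i) (S.b' i) δ :=
      eventually_all.2 fun i => ev_pgood (S.a'_pos i) (S.ab' i).le (S.b'_lt i)
    have h4 : ∀ᶠ δ in 𝓝[>] (0 : ℚ), ∀ i, PGood (S.c' i) (S.d' i) δ :=
      eventually_all.2 fun i => ev_pgood (S.c'_pos i) (S.cd' i).le (S.d'_lt i)
    have h5 : ∀ᶠ δ in 𝓝[>] (0 : ℚ), ∀ i, PGood (ht S i) (ht S i + 2 * eps S) δ :=
      eventually_all.2 fun i => ev_pgood (ht_pos S i) (by linarith [eps_pos S])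
        (by linarith [ht_lt S i])
    have h6 : ∀ᶠ δ in 𝓝[>] (0 : ℚ), ∀ i j, i ≠ j →
        S.b i + δ ≤ S.a j ∨ S.b j + δ ≤ S.a i ∨ S.d i + δ ≤ S.c j ∨ S.d j + δ ≤ S.c i := by
      refine eventually_all.2 fun i => eventually_all.2 fun j => ?_
      by_cases hij : i = j
      · exact Eventually.of_forall fun δ h => absurd hij h
      · rcases S.src_sep i j hij with h | h | h | h
        · filter_upwards [ev_add_le h] with δ e _ using Or.inl e
        · filter_upwards [ev_add_le h] with δ e _ using Or.inr (Or.inl e)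
        · filter_upwards [ev_add_le h] with δ e _ using Or.inr (Or.inr (Or.inl e))
        · filter_upwards [ev_add_le h] with δ e _ using Or.inr (Or.inr (Or.inr e))
    have h7 : ∀ᶠ δ in 𝓝[>] (0 : ℚ), ∀ i j, i ≠ j →
        S.b' i + δ ≤ S.a' j ∨ S.b' j + δ ≤ S.a' i ∨ S.d' i + δ ≤ S.c' j ∨
          S.d' j + δ ≤ S.c' i := by
      refine eventually_all.2 fun i => eventually_all.2 fun j => ?_
      by_cases hij : i = j
      · exact Eventually.of_forall fun δ h => absurd hij h
      · rcases S.tgt_sep i j hij with h | h | h | h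
        · filter_upwards [ev_add_le h] with δ e _ using Or.inl e
        · filter_upwards [ev_add_le h] with δ e _ using Or.inr (Or.inl e)
        · filter_upwards [ev_add_le h] with δ e _ using Or.inr (Or.inr (Or.inl e))
        · filter_upwards [ev_add_le h] with δ e _ using Or.inr (Or.inr (Or.inr e))
    filter_upwards [h1, h2, h3, h4, h5, h6, h7, ev_le (eps_pos S), self_mem_nhdsWithin] with
      δ e1 e2 e3 e4 e5 e6 e7 e8 e9
    exact ⟨e9, e1, e2, e3, e4, e5, e8, e6, e7⟩
  exact key.exists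

/-- A margin. -/
noncomputable def del : ℚ := (exists_delta S).choose

theorem del_ok : DeltaOK S (del S) := (exists_delta S).choose_spec

/-! ## the coefficients -/

/-- The affine data `(α, β, γ)` of the first profile (lift). -/
def co1 (i : Fin S.n) : ℚ × ℚ × ℚ :=
  (lift S i - eps S * S.a i - eps S * S.c i, eps S, eps S)

/-- The affine data of the second profile (`x`-shear). -/
def co2 (i : Fin S.n) : ℚ × ℚ × ℚ :=
  ((S.a' i - S.a i) + ((lam S i - 1) / eps S) * (-ht S i + eps S * S.c i),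
    -(lam S i - 1), (lam S i - 1) / eps S)

/-- The affine data of the third profile (`y`-shear). -/
def co3 (i : Fin S.n) : ℚ × ℚ × ℚ :=
  ((S.c' i - S.c i) + ((mu S i - 1) / eps S) * (-ht S i + eps S / lam S i * S.a' i),
    -((mu S i - 1) / lam S i), (mu S i - 1) / eps S)

/-- The affine data of the fourth profile (lowering). -/
def co4 (i : Fin S.n) : ℚ × ℚ × ℚ :=
  (ht S i - eps S / lam S i * S.a' i - eps S / mu S i * S.c' i, eps S / lam S i, eps S / mu S i)

/-- The first profile. -/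
noncomputable def h1 (x : Fin 3 → ℝ) : ℝ :=
  ∑ i, affFun 0 1 (S.a i) (S.b i) (S.c i) (S.d i) (del S) (co1 S i).1 (co1 S i).2.1 (co1 S i).2.2 x

/-- The second profile. -/
noncomputable def h2 (x : Fin 3 → ℝ) : ℝ :=
  ∑ i, affFun 1 2 (S.c i) (S.d i) (ht S i) (ht S i + 2 * eps S) (del S)
    (co2 S i).1 (co2 S i).2.1 (co2 S i).2.2 x

/-- The third profile. -/
noncomputable def h3 (x : Fin 3 → ℝ) : ℝ :=
  ∑ i, affFun 0 2 (S.a' i) (S.b' i) (ht S i) (ht S i + 2 * eps S) (del S)
    (co3 S i).1 (co3 S i).2.1 (co3 S i).2.2 x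

/-- The fourth profile. -/
noncomputable def h4 (x : Fin 3 → ℝ) : ℝ :=
  ∑ i, affFun 0 1 (S.a' i) (S.b' i) (S.c' i) (S.d' i) (del S)
    (co4 S i).1 (co4 S i).2.1 (co4 S i).2.2 x

theorem h1_val (i : Fin S.n) (x : Fin 3 → ℝ) (e1 : (S.a i : ℝ) ≤ x 0) (e2 : x 0 ≤ S.b i)
    (e3 : (S.c i : ℝ) ≤ x 1) (e4 : x 1 ≤ S.d i) :
    h1 S x = lift S i + eps S * (x 0 - S.a i) + eps S * (x 1 - S.c i) := by
  have hd := del_ok S
  have f1 : (0 : ℝ) < S.a i := by exact_mod_cast S.a_pos i
  have f2 : (S.b i : ℝ) < 1 := by exact_mod_cast S.b_lt i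
  have f3 : (0 : ℝ) < S.c i := by exact_mod_cast S.c_pos i
  have f4 : (S.d i : ℝ) < 1 := by exact_mod_cast S.d_lt i
  unfold h1
  rw [Finset.sum_eq_single i]
  · rw [affFun_on (hd.ab i) (hd.cd i) _ _ _ e1 e2 e3 e4]
    simp only [co1]
    push_cast
    ring
  · intro j _ hji
    refine affFun_off (hd.ab j) (hd.cd j) _ _ _ (by linarith) (by linarith) (by linarith)
      (by linarith) ?_
    rcases hd.src i j (Ne.symm hji) with h | h | h | h
    · left
      have : (S.b i : ℝ) + del S ≤ S.a j := by exact_mod_cast h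
      linarith
    · right; left
      have : (S.b j : ℝ) + del S ≤ S.a i := by exact_mod_cast h
      linarith
    · right; right; left
      have : (S.d i : ℝ) + del S ≤ S.c j := by exact_mod_cast h
      linarith
    · right; right; right
      have : (S.d j : ℝ) + del S ≤ S.c i := by exact_mod_cast h
      linarith
  · simp

theorem h4_val (i : Fin S.n) (x : Fin 3 → ℝ) (e1 : (S.a' i : ℝ) ≤ x 0) (e2 : x 0 ≤ S.b' i)
    (e3 : (S.c' i : ℝ) ≤ x 1) (e4 : x 1 ≤ S.d' i) :
    h4 S x = ht S i + (eps S : ℝ) / lam S i * (x 0 - S.a' i) +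
      (eps S : ℝ) / mu S i * (x 1 - S.c' i) := by
  have hd := del_ok S
  have f1 : (0 : ℝ) < S.a' i := by exact_mod_cast S.a'_pos i
  have f2 : (S.b' i : ℝ) < 1 := by exact_mod_cast S.b'_lt i
  have f3 : (0 : ℝ) < S.c' i := by exact_mod_cast S.c'_pos i
  have f4 : (S.d' i : ℝ) < 1 := by exact_mod_cast S.d'_lt i
  unfold h4
  rw [Finset.sum_eq_single i]
  · rw [affFun_on (hd.ab' i) (hd.cd' i) _ _ _ e1 e2 e3 e4]
    simp only [co4]
    push_cast
    ring
  · intro j _ hji
    refine affFun_off (hd.ab' j) (hd.cd' j) _ _ _ (by linarith) (by linarith) (by linarith)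
      (by linarith) ?_
    rcases hd.tgt i j (Ne.symm hji) with h | h | h | h
    · left
      have : (S.b' i : ℝ) + del S ≤ S.a' j := by exact_mod_cast h
      linarith
    · right; left
      have : (S.b' j : ℝ) + del S ≤ S.a' i := by exact_mod_cast h
      linarith
    · right; right; left
      have : (S.d' i : ℝ) + del S ≤ S.c' j := by exact_mod_cast h
      linarith
    · right; right; right
      have : (S.d' j : ℝ) + del S ≤ S.c' i := by exact_mod_cast h
      linarith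
  · simp

/-- The slabs of two different rules are separated. -/
theorem ht_sep {i j : Fin S.n} (hij : i ≠ j) :
    ht S i + 2 * eps S + del S ≤ ht S j ∨ ht S j + 2 * eps S + del S ≤ ht S i := by
  have hd := (del_ok S).le_eps
  have hp := eps_pos S
  rw [ht_eq, ht_eq]
  rcases lt_or_gt_of_ne (fun h => hij (Fin.ext h) : i.val ≠ j.val) with h | h
  · left
    have h' : (i.val : ℚ) + 1 ≤ j.val := by exact_mod_cast h
    nlinarith
  · right
    have h' : (j.val : ℚ) + 1 ≤ i.val := by exact_mod_cast h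
    nlinarith

theorem h2_val (i : Fin S.n) (x : Fin 3 → ℝ) (e1 : (S.c i : ℝ) ≤ x 1) (e2 : x 1 ≤ S.d i)
    (e3 : (ht S i : ℝ) ≤ x 2) (e4 : x 2 ≤ ht S i + 2 * eps S) :
    h2 S x = (S.a' i - S.a i) +
      ((lam S i : ℝ) - 1) / eps S * (x 2 - ht S i - eps S * (x 1 - S.c i)) := by
  have hd := del_ok S
  have f1 : (0 : ℝ) < S.c i := by exact_mod_cast S.c_pos i
  have f2 : (S.d i : ℝ) < 1 := by exact_mod_cast S.d_lt i
  have f3 : (0 : ℝ) < ht S i := by exact_mod_cast ht_pos S i
  have f4 : (ht S i : ℝ) + 2 * eps S < 1 / 2 := by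
    have := ht_lt S i
    have h : ((ht S i + 2 * eps S : ℚ) : ℝ) < ((1 / 2 : ℚ) : ℝ) := by exact_mod_cast this
    push_cast at h
    exact h
  have f5 : (eps S : ℝ) ≠ 0 := by exact_mod_cast (eps_pos S).ne'
  unfold h2
  rw [Finset.sum_eq_single i]
  · rw [affFun_on (hd.cd i) (hd.ht i) _ _ _ e1 e2 e3 (by push_cast; exact e4)]
    simp only [co2]
    push_cast
    field_simp
    ring
  · intro j _ hji
    refine affFun_off (hd.cd j) (hd.ht j) _ _ _ (by linarith) (by linarith) (by linarith)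
      (by linarith) ?_
    rcases ht_sep S (Ne.symm hji) with h | h
    · right; right; left
      have : (ht S i : ℝ) + 2 * eps S + del S ≤ ht S j := by exact_mod_cast h
      linarith
    · right; right; right
      have : (ht S j : ℝ) + 2 * eps S + del S ≤ ht S i := by exact_mod_cast h
      push_cast
      linarith
  · simp

theorem h3_val (i : Fin S.n) (x : Fin 3 → ℝ) (e1 : (S.a' i : ℝ) ≤ x 0) (e2 : x 0 ≤ S.b' i)
    (e3 : (ht S i : ℝ) ≤ x 2) (e4 : x 2 ≤ ht S i + 2 * eps S) :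
    h3 S x = (S.c' i - S.c i) +
      ((mu S i : ℝ) - 1) / eps S * (x 2 - ht S i - (eps S : ℝ) / lam S i * (x 0 - S.a' i)) := by
  have hd := del_ok S
  have f1 : (0 : ℝ) < S.a' i := by exact_mod_cast S.a'_pos i
  have f2 : (S.b' i : ℝ) < 1 := by exact_mod_cast S.b'_lt i
  have f3 : (0 : ℝ) < ht S i := by exact_mod_cast ht_pos S i
  have f4 : (ht S i : ℝ) + 2 * eps S < 1 / 2 := by
    have := ht_lt S i
    have h : ((ht S i + 2 * eps S : ℚ) : ℝ) < ((1 / 2 : ℚ) : ℝ) := by exact_mod_cast this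
    push_cast at h
    exact h
  have f5 : (eps S : ℝ) ≠ 0 := by exact_mod_cast (eps_pos S).ne'
  have f6 : (lam S i : ℝ) ≠ 0 := by exact_mod_cast (lam_pos S i).ne'
  unfold h3
  rw [Finset.sum_eq_single i]
  · rw [affFun_on (hd.ab' i) (hd.ht i) _ _ _ e1 e2 e3 (by push_cast; exact e4)]
    simp only [co3]
    push_cast
    field_simp
    ring
  · intro j _ hji
    refine affFun_off (hd.ab' j) (hd.ht j) _ _ _ (by linarith) (by linarith) (by linarith)
      (by linarith) ?_
    rcases ht_sep S (Ne.symm hji) with h | h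
    · right; right; left
      have : (ht S i : ℝ) + 2 * eps S + del S ≤ ht S j := by exact_mod_cast h
      linarith
    · right; right; right
      have : (ht S j : ℝ) + 2 * eps S + del S ≤ ht S i := by exact_mod_cast h
      push_cast
      linarith
  · simp

end Vale.Agent.P113.H163
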