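import Vale.Agent.P113.H163.Values
import Vale.Agent.P113.H803.Adm

/-!
# P113: time slots and the velocity lists
-/

set_option autoImplicit false

open MeasureTheory

namespace Vale.Agent.P113.H163

open Vale.Agent.P113

/-! ## the time functions -/

/-- The bump `ρ(20 s - (9 + 2 j))`, supported in the slot `[(4+j)/10, (5+j)/10]`. -/
def slot (j : ℕ) : Bump := ⟨Sum.inl 0, 0, (20, 0), (((9 + 2 * j : ℕ) : ℤ), 0)⟩

theorem slot_val (j : ℕ) (s : ℝ) : (slot j).val s = rho (20 * s - (9 + 2 * j)) := by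
  have h1 : (ratVal ((20 : ℤ), 0) : ℝ) = 20 := by simp [ratVal]
  have h2 : (ratVal (((9 + 2 * j : ℕ) : ℤ), 0) : ℝ) = 9 + 2 * j := by simp [ratVal]
  simp only [slot, Bump.val, iteratedDeriv_zero, h1, h2, pow_zero, one_mul]

theorem slot_valid (j : ℕ) : (slot j).Valid := by
  refine ⟨?_, ?_⟩
  · simp [slot, ratVal]
  · intro l hl
    simp [slot] at hl

/-- The normalised periodic time bump of slot `j`. -/
noncomputable def g (j : ℕ) (t : ℝ) : ℝ := 20 * kappa⁻¹ * periodize (slot j).val t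

/-- Its primitive. -/
noncomputable def G (j : ℕ) (t : ℝ) : ℝ := ∫ s in (0 : ℝ)..t, g j s

theorem g_continuous (j : ℕ) : Continuous (g j) :=
  continuous_const.mul (H803.periodize_val_contDiff (n := 0) (slot_valid j)).continuous

theorem hasDerivAt_G (j : ℕ) (t : ℝ) : HasDerivAt (G j) (g j t) t :=
  intervalIntegral.integral_hasDerivAt_right ((g_continuous j).intervalIntegrable _ _)
    (g_continuous j).stronglyMeasurable.stronglyMeasurableAtFilter (g_continuous j).continuousAt

theorem slot_val_left {j : ℕ} {s : ℝ} (hs : s ≤ (4 + j) / 10) : (slot j).val s = 0 := by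
  rw [slot_val]
  exact H803.rho_of_le (by linarith)

theorem slot_val_right {j : ℕ} {s : ℝ} (hs : (5 + j) / 10 ≤ s) : (slot j).val s = 0 := by
  rw [slot_val]
  exact H803.rho_of_ge (by linarith)

theorem g_eq {j : ℕ} (hj : j ≤ 5) (n : ℤ) {t : ℝ} (h0 : n ≤ t) (h1 : t ≤ n + 1) :
    g j t = 20 * kappa⁻¹ * rho (20 * (t - n) - (9 + 2 * j)) := by
  have hj' : (j : ℝ) ≤ 5 := by exact_mod_cast hj
  have hj0 : (0 : ℝ) ≤ j := by positivity
  unfold g
  rw [H803.per_eq_self' _ _ h0 h1, slot_val]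
  · intro s hs
    exact slot_val_left (by linarith)
  · intro s hs
    exact slot_val_right (by linarith)

theorem g_nonneg {j : ℕ} (hj : j ≤ 5) (t : ℝ) : 0 ≤ g j t := by
  rw [g_eq hj ⌊t⌋ (Int.floor_le t) (Int.lt_floor_add_one t).le]
  have := H803.rho_nonneg (20 * (t - ⌊t⌋) - (9 + 2 * j))
  have := H803.kappa_pos
  positivity

theorem G_monotone {j : ℕ} (hj : j ≤ 5) : Monotone (G j) :=
  monotone_of_deriv_nonneg (fun t => (hasDerivAt_G j t).differentiableAt) fun t => by
    rw [(hasDerivAt_G j t).deriv]; exact g_nonneg hj t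

theorem integral_g {j : ℕ} (hj : j ≤ 5) (n : ℤ) {t : ℝ} (h0 : n ≤ t) (h1 : t ≤ n + 1) :
    ∫ s in (n : ℝ)..t, g j s = kappa⁻¹ * sigma (20 * (t - n) - (9 + 2 * j)) := by
  have hj0 : (0 : ℝ) ≤ j := by positivity
  have h2 : ∀ s ∈ Set.uIcc (n : ℝ) t,
      HasDerivAt (fun s => kappa⁻¹ * sigma (20 * (s - n) - (9 + 2 * j))) (g j s) s := by
    intro s hs
    rw [Set.uIcc_of_le h0] at hs
    rw [g_eq hj n hs.1 (hs.2.trans h1)]
    have h3 : HasDerivAt (fun s : ℝ => 20 * (s - n) - (9 + 2 * j)) 20 s := by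
      simpa using (((hasDerivAt_id s).sub_const (n : ℝ)).const_mul 20).sub_const (9 + 2 * (j : ℝ))
    have h4 := (H803.hasDerivAt_sigma (20 * (s - n) - (9 + 2 * j))).comp s h3
    refine (h4.const_mul kappa⁻¹).congr_deriv ?_
    ring
  rw [intervalIntegral.integral_eq_sub_of_hasDerivAt h2 ((g_continuous j).intervalIntegrable _ _)]
  rw [sub_self, mul_zero, H803.sigma_of_le (s := 0 - (9 + 2 * (j : ℝ))) (by linarith)]
  ring

theorem G_nat {j : ℕ} (hj : j ≤ 5) (n : ℕ) : G j n = n := by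
  have hj' : (j : ℝ) ≤ 5 := by exact_mod_cast hj
  induction n with
  | zero => simp [G]
  | succ n ih =>
    unfold G at ih ⊢
    have h1 : ∫ s in (n : ℝ)..((n + 1 : ℕ) : ℝ), g j s = 1 := by
      have := integral_g hj (n : ℤ) (t := (n : ℝ) + 1) (by push_cast; linarith) (by push_cast; linarith)
      push_cast at this ⊢
      rw [this, H803.sigma_of_ge (by linarith), inv_mul_cancel₀ H803.kappa_pos.ne']
    rw [← intervalIntegral.integral_add_adjacent_intervals
      ((g_continuous j).intervalIntegrable 0 n) ((g_continuous j).intervalIntegrable n _), ih, h1]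
    push_cast
    ring

theorem G_eq {j : ℕ} (hj : j ≤ 5) (n : ℕ) {t : ℝ} (h0 : n ≤ t) (h1 : t ≤ n + 1) :
    G j t = n + kappa⁻¹ * sigma (20 * (t - n) - (9 + 2 * j)) := by
  have h2 := G_nat hj n
  have h3 := integral_g hj (n : ℤ) (t := t) (by exact_mod_cast h0) (by exact_mod_cast h1)
  push_cast at h3
  unfold G at h2 ⊢
  rw [← intervalIntegral.integral_add_adjacent_intervals
      ((g_continuous j).intervalIntegrable 0 n) ((g_continuous j).intervalIntegrable n _), h2, h3]

theorem G_before {j : ℕ} (hj : j ≤ 5) (n : ℕ) {t : ℝ} (h0 : n ≤ t) (h1 : t ≤ n + (4 + j) / 10) :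
    G j t = n := by
  have hj' : (j : ℝ) ≤ 5 := by exact_mod_cast hj
  rw [G_eq hj n h0 (by linarith), H803.sigma_of_le (by linarith)]
  ring

theorem G_after {j : ℕ} (hj : j ≤ 5) (n : ℕ) {t : ℝ} (h0 : n + (5 + j) / 10 ≤ t)
    (h1 : t ≤ n + 1) : G j t = n + 1 := by
  have hj0 : (0 : ℝ) ≤ j := by positivity
  rw [G_eq hj n (by linarith) h1, H803.sigma_of_ge (by linarith),
    inv_mul_cancel₀ H803.kappa_pos.ne']

/-- The transient time bump. -/
noncomputable def g0 (t : ℝ) : ℝ := 10 * kappa⁻¹ * rho (10 * t - 2)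

/-- Its primitive. -/
noncomputable def G0 (t : ℝ) : ℝ := kappa⁻¹ * sigma (10 * t - 2)

theorem hasDerivAt_G0 (t : ℝ) : HasDerivAt G0 (g0 t) t := by
  have h3 : HasDerivAt (fun s : ℝ => 10 * s - 2) 10 t := by
    simpa using ((hasDerivAt_id t).const_mul 10).sub_const 2
  have h4 := (H803.hasDerivAt_sigma (10 * t - 2)).comp t h3
  refine (h4.const_mul kappa⁻¹).congr_deriv ?_
  unfold g0
  ring

theorem g0_nonneg (t : ℝ) : 0 ≤ g0 t := by
  have := H803.rho_nonneg (10 * t - 2)
  have := H803.kappa_pos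
  unfold g0
  positivity

theorem G0_monotone : Monotone G0 :=
  monotone_of_deriv_nonneg (fun t => (hasDerivAt_G0 t).differentiableAt) fun t => by
    rw [(hasDerivAt_G0 t).deriv]; exact g0_nonneg t

theorem G0_before {t : ℝ} (h : t ≤ 1 / 10) : G0 t = 0 := by
  unfold G0
  rw [H803.sigma_of_le (by linarith), mul_zero]

theorem G0_after {t : ℝ} (h : 3 / 10 ≤ t) : G0 t = 1 := by
  unfold G0
  rw [H803.sigma_of_ge (by linarith), inv_mul_cancel₀ H803.kappa_pos.ne']

theorem g0_before {t : ℝ} (h : t ≤ 1 / 10) : g0 t = 0 := by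
  unfold g0
  rw [H803.rho_of_le (by linarith), mul_zero]

theorem g0_after {t : ℝ} (h : 3 / 10 ≤ t) : g0 t = 0 := by
  unfold g0
  rw [H803.rho_of_ge (by linarith), mul_zero]

/-! ## the velocity lists -/

variable (S : BlockSystem)

/-- The list of terms of `s θ(t) ∑_i (affine data)`. -/
def profTerms (s : ℚ) (slotj : ℕ) (j k : Fin 3) (p q r w : Fin S.n → ℚ) (δ : ℚ)
    (co : Fin S.n → ℚ × ℚ × ℚ) : List Term :=
  (List.finRange S.n).flatMap fun i =>
    affTerms s (-3) [(true, slot slotj)] j k (p i) (q i) (r i) (w i) δ (co i).1 (co i).2.1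
      (co i).2.2

theorem evalTerms_flatMap {ι : Type*} (l : List ι) (f : ι → List Term) (ν t : ℝ)
    (x : Fin 3 → ℝ) :
    evalTerms (l.flatMap f) ν t x = (l.map fun i => evalTerms (f i) ν t x).sum := by
  induction l with
  | nil => simp [evalTerms]
  | cons a l ih => simp only [List.flatMap_cons, H803.evalTerms_append, ih, List.map_cons,
      List.sum_cons]

theorem profTerms_eval (s : ℚ) (slotj : ℕ) {j k : Fin 3} (hjk : j ≠ k)
    (p q r w : Fin S.n → ℚ) (δ : ℚ) (co : Fin S.n → ℚ × ℚ × ℚ) (ν t : ℝ) (x : Fin 3 → ℝ) :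
    evalTerms (profTerms S s slotj j k p q r w δ co) ν t x =
      s * kappa⁻¹ * periodize (slot slotj).val t *
        ∑ i, affFun j k (p i) (q i) (r i) (w i) δ (co i).1 (co i).2.1 (co i).2.2 x := by
  have e : ∀ i, evalTerms (affTerms s (-3) [(true, slot slotj)] j k (p i) (q i) (r i) (w i) δ
      (co i).1 (co i).2.1 (co i).2.2) ν t x = s * kappa⁻¹ * periodize (slot slotj).val t *
        affFun j k (p i) (q i) (r i) (w i) δ (co i).1 (co i).2.1 (co i).2.2 x := by
    intro i
    have := affTerms_eval s (-1) [(true, slot slotj)] hjk (p i) (q i) (r i) (w i) δ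
      (co i).1 (co i).2.1 (co i).2.2 ν t x
    norm_num [timeProd] at this
    rw [this]
  unfold profTerms
  rw [evalTerms_flatMap]
  simp only [e]
  rw [Finset.mul_sum, ← List.ofFn_eq_map, List.sum_ofFn]

/-- The velocity field of the block system `S`, as lists of terms. -/
noncomputable def vel : Fin 3 → List Term := fun i =>
  if i = 0 then
    profTerms S 20 2 1 2 S.c S.d (ht S) (fun i => ht S i + 2 * eps S) (del S) (co2 S)
  else if i = 1 then
    profTerms S 20 3 0 2 S.a' S.b' (ht S) (fun i => ht S i + 2 * eps S) (del S) (co3 S)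
  else
    profTerms S 20 1 0 1 S.a S.b S.c S.d (del S) (co1 S) ++
      profTerms S (-20) 4 0 1 S.a' S.b' S.c' S.d' (del S) (co4 S)

theorem vel_eval0 (ν t : ℝ) (x : Fin 3 → ℝ) : evalTerms (vel S 0) ν t x = g 2 t * h2 S x := by
  have h : vel S 0 =
    profTerms S 20 2 1 2 S.c S.d (ht S) (fun i => ht S i + 2 * eps S) (del S) (co2 S) := rfl
  rw [h, profTerms_eval S 20 2 (by decide)]
  simp only [g, h2]
  push_cast
  ring

theorem vel_eval1 (ν t : ℝ) (x : Fin 3 → ℝ) : evalTerms (vel S 1) ν t x = g 3 t * h3 S x := by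
  have h : vel S 1 =
    profTerms S 20 3 0 2 S.a' S.b' (ht S) (fun i => ht S i + 2 * eps S) (del S) (co3 S) := rfl
  rw [h, profTerms_eval S 20 3 (by decide)]
  simp only [g, h3]
  push_cast
  ring

theorem vel_eval2 (ν t : ℝ) (x : Fin 3 → ℝ) :
    evalTerms (vel S 2) ν t x = g 1 t * h1 S x - g 4 t * h4 S x := by
  have h : vel S 2 = profTerms S 20 1 0 1 S.a S.b S.c S.d (del S) (co1 S) ++
      profTerms S (-20) 4 0 1 S.a' S.b' S.c' S.d' (del S) (co4 S) := rfl
  rw [h, H803.evalTerms_append, profTerms_eval S 20 1 (by decide),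
    profTerms_eval S (-20) 4 (by decide)]
  simp only [g, h1, h4]
  push_cast
  ring

end Vale.Agent.P113.H163
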